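import Vale.Agent.H17.HowieBridge

/-!
Howie's conjecture for a group `G` reduces to the finitely generated subgroups of `G`
that do not map onto the infinite cyclic group.  All definitions used in the statement are in
`Vale.Agent.H17.HowieStatement`; the proof is a combinatorial version of Howie's tower argument.
-/

namespace Vale.Agent.Results.P174.LocalReduction

open Monoid Vale.Agent.H17.HowieConj

universe u

theorem result :
    -- (1) the criterion, group by group
    (∀ (G : Type u) [Group G],
      HowieHolds G ↔ ∀ P : Subgroup G, P.FG → ¬ MapsOntoZ P → HowieHolds P) ∧
    -- (2) closure under extensions with locally indicable quotient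
    (∀ (G : Type u) [Group G] (N : Subgroup G) [N.Normal],
      LocallyIndicable (G ⧸ N) → HowieHolds N → HowieHolds G) ∧
    -- (3) an unconditional class: abelian-by-(locally indicable) groups
    (∀ (G : Type u) [Group G] (N : Subgroup G) [N.Normal],
      LocallyIndicable (G ⧸ N) → (∀ a b : N, a * b = b * a) → HowieHolds G) ∧
    -- (4) over an arbitrary group only the subgroup containing the coefficients matters
    (∀ (G : Type u) [Group G] (C : Subgroup G), HowieHolds C →
      ∀ (m n : ℕ) (w : Fin m → Coprod G (FreeGroup (Fin n))),
        CoefficientsIn C w → Nonsingular w → SolvableOver w) :=
  main_result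

end Vale.Agent.Results.P174.LocalReduction
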